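import Vale.Agent.P194.Cut

namespace Vale.Agent.Results.P194.OneSidedLocal

/-- Direct finiteness of a group algebra is a one-sided local property.
(1) If `a * b = 1` in `K[G]` and ONE of the two factors is supported in a subgroup `H` such that
the elements of `K[G]` supported in `H` (the canonical copy of `K[H]`) satisfy
`x * y = 1 → y * x = 1`, then `b * a = 1`.
(2) Unconditionally: if the support of one of the factors consists of pairwise commuting group
elements, then `a * b = 1` implies `b * a = 1`. -/
theorem result {K G : Type*} [Field K] [Group G] :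
    (∀ H : Subgroup G,
      (∀ x y : MonoidAlgebra K G, (∀ g, x.coeff g ≠ 0 → g ∈ H) → (∀ g, y.coeff g ≠ 0 → g ∈ H) →
        x * y = 1 → y * x = 1) →
      ∀ a b : MonoidAlgebra K G,
        ((∀ g, a.coeff g ≠ 0 → g ∈ H) ∨ (∀ g, b.coeff g ≠ 0 → g ∈ H)) →
        a * b = 1 → b * a = 1) ∧
    (∀ a b : MonoidAlgebra K G,
      ((∀ g k, a.coeff g ≠ 0 → a.coeff k ≠ 0 → g * k = k * g) ∨
        (∀ g k, b.coeff g ≠ 0 → b.coeff k ≠ 0 → g * k = k * g)) →
      a * b = 1 → b * a = 1) :=
  ⟨fun H hH a b hs hab => Vale.Agent.P194.local_df H hH a b hs hab,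
    fun a b hc hab => Vale.Agent.P194.comm_supp_df a b hc hab⟩

end Vale.Agent.Results.P194.OneSidedLocal
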